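import Vale.Agent.P031.Main

namespace Vale.Agent.Results.P031.Ratio

open Vale.Agent.P031 Filter

theorem result : ∀ c : ℝ, 1 < c →
    Tendsto (fun x : ℝ => (V (c * x) : ℝ) / (V x : ℝ)) atTop (nhds c) := ratio

end Vale.Agent.Results.P031.Ratio
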